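import Vale.Agent.P154.X57.SmTgtK

/-! # P154 q = 4: data of the subadditivity certificate XT2 and the packed checks (generated) -/

namespace Vale.Agent.P154.XT2

open Finset Vale.Agent.Util.Polya Vale.Agent.P154 Vale.Agent.P154.X57

def Ld : TL :=
  [(-34560000, 1, 0, 0, 0), (3409920000, 1, 1, 0, 0), (-73390080000, 1, 1, 1, 0), (452812800000, 1, 1, 1, 1),
   (-73390080000, 2, 1, 0, 0), (2264064000000, 2, 1, 1, 0), (-15939624960000, 2, 1, 1, 1),
   (452812800000, 2, 2, 0, 0), (-21252833280000, 2, 2, 1, 0), (178772705280000, 2, 2, 1, 1),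
   (55006986240000, 2, 2, 2, 0), (-715397529600000, 2, 2, 2, 1), (821035008000000, 2, 2, 2, 2),
   (452812800000, 3, 1, 0, 0), (-12397486080000, 3, 1, 1, 0), (73342648320000, 3, 1, 1, 1),
   (-5313208320000, 3, 2, 0, 0), (201692282880000, 3, 2, 1, 0), (-1351306444800000, 3, 2, 1, 1),
   (-635908915200000, 3, 2, 2, 0), (6294601728000000, 3, 2, 2, 1), (-6969360384000000, 3, 2, 2, 2),
   (13751746560000, 3, 3, 0, 0), (-397443072000000, 3, 3, 1, 0), (2006974464000000, 3, 3, 1, 1),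
   (1915748352000000, 3, 3, 2, 0), (-13474096742400000, 3, 3, 2, 1), (14339486515200000, 3, 3, 2, 2),
   (-1393872076800000, 3, 3, 3, 0), (6200859033600000, 3, 3, 3, 1), (-6341787648000000, 3, 3, 3, 2),
   (-1771069440000, 4, 1, 0, 0), (41255239680000, 4, 1, 1, 0), (-198721536000000, 4, 1, 1, 1),
   (18335662080000, 4, 2, 0, 0), (-556420300800000, 4, 2, 1, 0), (2873622528000000, 4, 2, 1, 1),
   (1368391680000000, 4, 2, 2, 0), (-9757104537600000, 4, 2, 2, 1), (6975966412800000, 4, 2, 2, 2),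
   (-79488614400000, 4, 3, 0, 0), (1733296128000000, 4, 3, 1, 0), (-6272424345600000, 4, 3, 1, 1),
   (-6040112332800000, 4, 3, 2, 0), (27128758272000000, 4, 3, 2, 1), (-13951932825600000, 4, 3, 2, 2),
   (4263090585600000, 4, 3, 3, 0), (-9089895628800000, 4, 3, 3, 1), (91226112000000, 4, 4, 0, 0),
   (-1393872076800000, 4, 4, 1, 0), (3197317939200000, 4, 4, 1, 1), (3100429516800000, 4, 4, 2, 0),
   (-6658877030400000, 4, 4, 2, 1), (-2113929216000000, 4, 4, 3, 0), (4583915520000, 5, 1, 0, 0),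
   (-87437475840000, 5, 1, 1, 0), (328414003200000, 5, 1, 1, 1), (-39744307200000, 5, 2, 0, 0),
   (930506342400000, 5, 2, 1, 0), (-3484680192000000, 5, 2, 1, 1), (-1672646492160000, 5, 2, 2, 0),
   (7673563054080000, 5, 2, 2, 1), (-2663550812160000, 5, 2, 2, 2), (136839168000000, 5, 3, 0, 0),
   (-2137270517760000, 5, 3, 1, 0), (4960687226880000, 5, 3, 1, 1), (4805665751040000, 5, 3, 2, 0),
   (-10400531742720000, 5, 3, 2, 1), (-1648864788480000, 5, 3, 3, 0), (-232312012800000, 5, 4, 0, 0),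
   (2247811399680000, 5, 4, 1, 0), (-2473297182720000, 5, 4, 1, 1), (-2409879306240000, 5, 4, 2, 0),
   (96888422400000, 5, 5, 0, 0), (-443925135360000, 5, 5, 1, 0), (-7948861440000, 6, 1, 0, 0),
   (118593945600000, 6, 1, 1, 0), (-325236817920000, 6, 1, 1, 1), (54735667200000, 6, 2, 0, 0),
   (-929248051200000, 6, 2, 1, 0), (2247811399680000, 6, 2, 1, 1), (1085150330880000, 6, 2, 2, 0),
   (-2409879306240000, 6, 2, 2, 1), (-139387207680000, 6, 3, 0, 0), (1395193282560000, 6, 3, 1, 0),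
   (-1564307619840000, 6, 3, 1, 1), (-1522029035520000, 6, 3, 2, 0), (155021475840000, 6, 4, 0, 0),
   (-718735933440000, 6, 4, 1, 0), (-63417876480000, 6, 5, 0, 0), (9122611200000, 7, 1, 0, 0),
   (-99562291200000, 7, 1, 1, 0), (177167400960000, 7, 1, 1, 1), (-46462402560000, 7, 2, 0, 0),
   (509356277760000, 7, 2, 1, 0), (-597939978240000, 7, 2, 1, 1), (-289910292480000, 7, 2, 2, 0),
   (77510737920000, 7, 3, 0, 0), (-374467461120000, 7, 3, 1, 0), (-42278584320000, 7, 4, 0, 0),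
   (-6637486080000, 8, 1, 0, 0), (47060090880000, 8, 1, 1, 0), (-40768634880000, 8, 1, 1, 1),
   (22145925120000, 8, 2, 0, 0), (-117776056320000, 8, 2, 1, 0), (-18119393280000, 8, 3, 0, 0),
   (2768240640000, 9, 1, 0, 0), (-9563013120000, 9, 1, 1, 0), (-4529848320000, 9, 2, 0, 0),
   (-503316480000, 10, 1, 0, 0)]

def Xs0 : TL :=
  [(720000, 0, 0, 0, 0), (-5760000, 1, 0, 0, 0), (11520000, 2, 0, 0, 0)]

def Xt0 : TL :=
  [(1, 0, 0, 0, 0)]

def Ts0 : TG := [(18119393280000, 1, 0, 0)]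

def Tt0 : TG := [(100663296, 0, 0, 0)]

def Xs1 : TL :=
  [(720000, 0, 0, 0, 0)]

def Xt1 : TL :=
  [(1, 0, 0, 0, 0), (-8, 1, 0, 0, 0), (16, 2, 0, 0, 0)]

def Ts1 : TG := [(72477573120000, 0, 0, 0)]

def Tt1 : TG := [(25165824, 1, 0, 0)]

def Xs2 : TL :=
  [(219, 0, 0, 0, 0), (-3072, 1, 0, 0, 0), (5040, 1, 1, 0, 0), (10992, 2, 0, 0, 0), (-21888, 2, 1, 0, 0),
   (23616, 2, 2, 0, 0), (-15744, 3, 0, 0, 0), (4608, 3, 1, 0, 0), (-9216, 3, 2, 0, 0), (9408, 4, 0, 0, 0),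
   (-3072, 5, 0, 0, 0)]

def Xt2 : TL :=
  [(2915, 0, 0, 0, 0), (-10316, 1, 0, 0, 0), (12312, 1, 1, 0, 0), (-174528, 1, 1, 1, 0), (-109016, 2, 0, 0, 0),
   (111888, 2, 1, 0, 0), (1047168, 2, 1, 1, 0), (-435456, 2, 2, 0, 0), (-2094336, 2, 2, 1, 0),
   (1396224, 2, 2, 2, 0), (585264, 3, 0, 0, 0), (-205056, 3, 1, 0, 0), (1276416, 3, 2, 0, 0),
   (-1155072, 3, 3, 0, 0), (-961920, 4, 0, 0, 0), (-673920, 4, 1, 0, 0), (1347840, 4, 2, 0, 0),
   (898944, 5, 0, 0, 0), (-401152, 6, 0, 0, 0)]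

def Ts2 : TG := [(-3019898880, 0, 1, 0), (-75497472, 1, 1, 0), (547356672, 2, 0, 0)]

def Tt2 : TG := [(-33143390208, 0, 0, 1), (-12582912000, 0, 1, 0), (-2365587456, 0, 2, 0), (100663296000, 1, 0, 0), (-1528823808, 1, 0, 1), (7304380416, 1, 1, 0), (3793747968, 2, 0, 0), (1429733376, 3, 0, 0)]

def Xs3 : TL :=
  [(-8745, 0, 0, 0, 0), (30948, 1, 0, 0, 0), (-36936, 1, 1, 0, 0), (523584, 1, 1, 1, 0), (327048, 2, 0, 0, 0),
   (-335664, 2, 1, 0, 0), (-3141504, 2, 1, 1, 0), (1306368, 2, 2, 0, 0), (6283008, 2, 2, 1, 0),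
   (-4188672, 2, 2, 2, 0), (-1755792, 3, 0, 0, 0), (615168, 3, 1, 0, 0), (-3829248, 3, 2, 0, 0),
   (3465216, 3, 3, 0, 0), (2885760, 4, 0, 0, 0), (2021760, 4, 1, 0, 0), (-4043520, 4, 2, 0, 0),
   (-2696832, 5, 0, 0, 0), (1203456, 6, 0, 0, 0)]

def Xt3 : TL :=
  [(-73, 0, 0, 0, 0), (1024, 1, 0, 0, 0), (-1680, 1, 1, 0, 0), (-3664, 2, 0, 0, 0), (7296, 2, 1, 0, 0),
   (-7872, 2, 2, 0, 0), (5248, 3, 0, 0, 0), (-1536, 3, 1, 0, 0), (3072, 3, 2, 0, 0), (-3136, 4, 0, 0, 0),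
   (1024, 5, 0, 0, 0)]

def Ts3 : TG := [(99430170624, 0, 0, 1), (37748736000, 0, 1, 0), (7096762368, 0, 2, 0), (-301989888000, 1, 0, 0), (4586471424, 1, 0, 1), (-21913141248, 1, 1, 0), (-11381243904, 2, 0, 0), (-4289200128, 3, 0, 0)]

def Tt3 : TG := [(1006632960, 0, 1, 0), (25165824, 1, 1, 0), (-182452224, 2, 0, 0)]

def Xs4 : TL :=
  [(-1600, 0, 0, 0, 0), (25600, 1, 0, 0, 0), (-76800, 1, 1, 0, 0), (-76800, 2, 0, 0, 0), (307200, 2, 1, 0, 0),
   (-307200, 2, 2, 0, 0), (102400, 3, 0, 0, 0), (-102400, 4, 0, 0, 0)]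

def Xt4 : TL :=
  [(1, 0, 0, 0, 0), (-8, 1, 0, 0, 0), (16, 2, 0, 0, 0)]

def Ts4 : TG := [(-10066329600, 2, 0, 0)]

def Tt4 : TG := [(25165824, 1, 0, 0)]

def Xs5 : TL :=
  [(-1600, 0, 0, 0, 0), (12800, 1, 0, 0, 0), (-25600, 2, 0, 0, 0)]

def Xt5 : TL :=
  [(1, 0, 0, 0, 0), (-16, 1, 0, 0, 0), (48, 1, 1, 0, 0), (48, 2, 0, 0, 0), (-192, 2, 1, 0, 0), (192, 2, 2, 0, 0),
   (-64, 3, 0, 0, 0), (64, 4, 0, 0, 0)]

def Ts5 : TG := [(-40265318400, 1, 0, 0)]

def Tt5 : TG := [(6291456, 2, 0, 0)]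

def Xs : List TL := [Xs0, Xs1, Xs2, Xs3, Xs4, Xs5]

def Xt : List TL := [Xt0, Xt1, Xt2, Xt3, Xt4, Xt5]

set_option maxRecDepth 100000 in
theorem hgood : good 11 11 120 (certE 11 0 1 0 1 Ld Xs Xt) = true := by
  decide +kernel

set_option maxRecDepth 100000 in
theorem hbnd : 2 * bnd (certE 11 0 1 0 1 Ld Xs Xt) < 2 ^ 120 := by
  decide +kernel

set_option maxRecDepth 100000 in
theorem hchk0 : check 120 12 11 (certE 11 0 1 0 1 Ld Xs Xt) (0) 6 = true := by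
  decide +kernel

set_option maxRecDepth 100000 in
theorem hchk1 : check 120 12 11 (certE 11 0 1 0 1 Ld Xs Xt) (0 + 6) 6 = true := by
  decide +kernel

set_option maxRecDepth 100000 in
theorem hchk2 : check 120 12 11 (certE 11 0 1 0 1 Ld Xs Xt) (0 + 6 + 6) 8 = true := by
  decide +kernel

set_option maxRecDepth 100000 in
theorem hchk3 : check 120 12 11 (certE 11 0 1 0 1 Ld Xs Xt) (0 + 6 + 6 + 8) 10 = true := by
  decide +kernel

set_option maxRecDepth 100000 in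
theorem hchk4 : check 120 12 11 (certE 11 0 1 0 1 Ld Xs Xt) (0 + 6 + 6 + 8 + 10) 12 = true := by
  decide +kernel

set_option maxRecDepth 100000 in
theorem hchk5 : check 120 12 11 (certE 11 0 1 0 1 Ld Xs Xt) (0 + 6 + 6 + 8 + 10 + 12) 14 = true := by
  decide +kernel

set_option maxRecDepth 100000 in
theorem hchk6 : check 120 12 11 (certE 11 0 1 0 1 Ld Xs Xt) (0 + 6 + 6 + 8 + 10 + 12 + 14) 16 = true := by
  decide +kernel

set_option maxRecDepth 100000 in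
theorem hchk7 : check 120 12 11 (certE 11 0 1 0 1 Ld Xs Xt) (0 + 6 + 6 + 8 + 10 + 12 + 14 + 16) 20 = true := by
  decide +kernel

set_option maxRecDepth 100000 in
theorem hchk8 : check 120 12 11 (certE 11 0 1 0 1 Ld Xs Xt) (0 + 6 + 6 + 8 + 10 + 12 + 14 + 16 + 20) 24 = true := by
  decide +kernel

set_option maxRecDepth 100000 in
theorem hchk9 : check 120 12 11 (certE 11 0 1 0 1 Ld Xs Xt) (0 + 6 + 6 + 8 + 10 + 12 + 14 + 16 + 20 + 24) 28 = true := by
  decide +kernel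

theorem hchk : check 120 12 11 (certE 11 0 1 0 1 Ld Xs Xt) 0 (12 * 12) = true := by
  have h := (check_append (check_append (check_append (check_append (check_append (check_append (check_append (check_append (check_append hchk0 hchk1) hchk2) hchk3) hchk4) hchk5) hchk6) hchk7) hchk8) hchk9)
  have e : 6 + 6 + 8 + 10 + 12 + 14 + 16 + 20 + 24 + 28 = 12 * 12 := by norm_num
  rw [e] at h
  exact h

set_option maxRecDepth 100000 in
theorem chkS0 : chkTK 56 12 11 Xs0 1 1 4 Ts0 = true := by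
  decide +kernel

set_option maxRecDepth 100000 in
theorem chkT0 : chkTK 32 12 11 Xt0 1 1 4 Tt0 = true := by
  decide +kernel

set_option maxRecDepth 100000 in
theorem chkS1 : chkTK 56 12 11 Xs1 1 1 4 Ts1 = true := by
  decide +kernel

set_option maxRecDepth 100000 in
theorem chkT1 : chkTK 32 12 11 Xt1 1 1 4 Tt1 = true := by
  decide +kernel

set_option maxRecDepth 100000 in
theorem chkS2 : chkTK 48 12 11 Xs2 1 1 4 Ts2 = true := by
  decide +kernel

set_option maxRecDepth 100000 in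
theorem chkT2 : chkTK 48 12 11 Xt2 1 1 4 Tt2 = true := by
  decide +kernel

set_option maxRecDepth 100000 in
theorem chkS3 : chkTK 56 12 11 Xs3 1 1 4 Ts3 = true := by
  decide +kernel

set_option maxRecDepth 100000 in
theorem chkT3 : chkTK 48 12 11 Xt3 1 1 4 Tt3 = true := by
  decide +kernel

set_option maxRecDepth 100000 in
theorem chkS4 : chkTK 48 12 11 Xs4 1 1 4 Ts4 = true := by
  decide +kernel

set_option maxRecDepth 100000 in
theorem chkT4 : chkTK 32 12 11 Xt4 1 1 4 Tt4 = true := by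
  decide +kernel

set_option maxRecDepth 100000 in
theorem chkS5 : chkTK 48 12 11 Xs5 1 1 4 Ts5 = true := by
  decide +kernel

set_option maxRecDepth 100000 in
theorem chkT5 : chkTK 40 12 11 Xt5 1 1 4 Tt5 = true := by
  decide +kernel

end Vale.Agent.P154.XT2
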